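import Vale.Agent.N031.Main

/-!
The number of values of Euler's function: an asymptotic formula for `V(x)` in terms of the
coefficients `a_j` of Ford.
-/

namespace Vale.Agent.Results.P031.A0FordFormula

open Filter Topology
open scoped Classical

/-- `V(x)`: the number of distinct values `v ≤ x` of Euler's function. -/
noncomputable def V (x : ℝ) : ℕ :=
  Set.ncard {v : ℕ | (∃ n : ℕ, 1 ≤ n ∧ Nat.totient n = v) ∧ (v : ℝ) ≤ x}

/-- `A(v)`: the number of `n ≥ 1` with `φ(n) = v`. -/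
noncomputable def A (v : ℕ) : ℕ := Set.ncard {n : ℕ | 1 ≤ n ∧ Nat.totient n = v}

/-- `a_j = (j+1) log (j+1) - j log j - 1`. -/
noncomputable def a (j : ℕ) : ℝ :=
  ((j : ℝ) + 1) * Real.log ((j : ℝ) + 1) - (j : ℝ) * Real.log (j : ℝ) - 1

/-- `L(n) = ∑_j a_j log log p_j`, where `p_1 > p_2 > ...` are the primes dividing `n`
(the index of `p` is the number of primes `q ≥ p` dividing `n`). -/
noncomputable def L (n : ℕ) : ℝ :=
  ∑ p ∈ n.primeFactors,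
    a (n.primeFactors.filter (fun q => p ≤ q)).card * Real.log (Real.log (p : ℝ))

theorem L_eq (n : ℕ) : L n = Vale.Agent.N031.kap 0 n := by
  unfold L Vale.Agent.N031.kap
  refine Finset.sum_congr rfl fun p _ => ?_
  rw [zero_add]
  rfl

theorem result :
    -- (1) `V(x) ~ (x / log x) ∑ 1/d`, over the values `d = φ(n) ≤ x^η` with `L(n) ≤ log log x`
    (∀ η : ℝ, 0 < η → η ≤ 1 →
      Tendsto (fun x : ℝ => (V x : ℝ) / (x / Real.log x *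
        ∑ d ∈ (Finset.Icc 1 ⌊x ^ η⌋₊).filter (fun d => ∃ n : ℕ, 1 ≤ n ∧ Nat.totient n = d ∧
          L n ≤ Real.log (Real.log x)), 1 / (d : ℝ))) atTop (𝓝 1)) ∧
    -- (2) the same with a tolerance, for some or for every preimage, and with multiplicities
    (∀ ε : ℝ, 0 < ε → ∃ δ : ℝ, 0 < δ ∧ ∀ η : ℝ, 0 < η → ∀ᶠ x : ℝ in atTop, ∀ D : Finset ℕ,
      (∀ d ∈ D, (d : ℝ) ≤ x ∧ ∃ n : ℕ, 1 ≤ n ∧ Nat.totient n = d ∧
        L n ≤ Real.log (Real.log x) + δ * Real.log (Real.log x) ^ ((19 : ℝ) / 20)) →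
      (∀ d : ℕ, (∃ n : ℕ, 1 ≤ n ∧ Nat.totient n = d) → (d : ℝ) ≤ x ^ η →
        (∀ n : ℕ, 1 ≤ n → Nat.totient n = d →
          L n ≤ Real.log (Real.log x) - δ * Real.log (Real.log x) ^ ((19 : ℝ) / 20)) → d ∈ D) →
      ∀ K : Set ℕ,
        |(Set.ncard {v : ℕ | (∃ n : ℕ, 1 ≤ n ∧ Nat.totient n = v) ∧ (v : ℝ) ≤ x ∧ A v ∈ K} : ℝ) -
          x / Real.log x * ∑ d ∈ D.filter (fun d => A d ∈ K), 1 / (d : ℝ)| ≤ ε * V x) := by
  have h3 : ∀ ε : ℝ, 0 < ε → ∃ δ : ℝ, 0 < δ ∧ ∀ η : ℝ, 0 < η → ∀ᶠ x : ℝ in atTop, ∀ D : Finset ℕ,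
      (∀ d ∈ D, (d : ℝ) ≤ x ∧ ∃ n : ℕ, 1 ≤ n ∧ Nat.totient n = d ∧
        L n ≤ Real.log (Real.log x) + δ * Real.log (Real.log x) ^ ((19 : ℝ) / 20)) →
      (∀ d : ℕ, (∃ n : ℕ, 1 ≤ n ∧ Nat.totient n = d) → (d : ℝ) ≤ x ^ η →
        (∀ n : ℕ, 1 ≤ n → Nat.totient n = d →
          L n ≤ Real.log (Real.log x) - δ * Real.log (Real.log x) ^ ((19 : ℝ) / 20)) → d ∈ D) →
      ∀ K : Set ℕ,
        |(Set.ncard {v : ℕ | (∃ n : ℕ, 1 ≤ n ∧ Nat.totient n = v) ∧ (v : ℝ) ≤ x ∧ A v ∈ K} : ℝ) -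
          x / Real.log x * ∑ d ∈ D.filter (fun d => A d ∈ K), 1 / (d : ℝ)| ≤ ε * V x := by
    intro ε hε
    obtain ⟨δ, hδ, h⟩ := Vale.Agent.N031.law ε hε 0
    refine ⟨δ, hδ, fun η hη => ?_⟩
    filter_upwards [h η hη] with x hx D h1 h2 K
    simp only [L_eq] at h1 h2
    refine hx D h1 h2 {n : ℕ | 1 ≤ n} K fun p hp _ n hn _ => ?_
    exact ⟨fun _ => hn, fun _ => Nat.mul_pos hp.pos hn⟩
  refine ⟨fun η hη hη1 => ?_, h3⟩
  rw [Metric.tendsto_nhds]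
  intro ε hε
  obtain ⟨ε₁, hε₁0, hε₁1, hε₁⟩ : ∃ ε₁ : ℝ, 0 < ε₁ ∧ ε₁ ≤ 1 / 2 ∧ ε₁ ≤ ε / 4 :=
    ⟨min (1 / 2) (ε / 4), by positivity, min_le_left _ _, min_le_right _ _⟩
  obtain ⟨δ, hδ, h⟩ := h3 ε₁ hε₁0
  filter_upwards [h η hη, eventually_ge_atTop (3 : ℝ)] with x hx hx3
  have hx1 : (1 : ℝ) ≤ x := by linarith only [hx3]
  have hll : 0 ≤ Real.log (Real.log x) := by
    refine Real.log_nonneg ?_
    rw [Real.le_log_iff_exp_le (by linarith only [hx3])]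
    linarith only [Real.exp_one_lt_d9, hx3]
  have hτ : 0 ≤ δ * Real.log (Real.log x) ^ ((19 : ℝ) / 20) := by positivity
  have hxη : x ^ η ≤ x := by
    calc x ^ η ≤ x ^ (1 : ℝ) := Real.rpow_le_rpow_of_exponent_le hx1 hη1
      _ = x := Real.rpow_one x
  have h1 := hx ((Finset.Icc 1 ⌊x ^ η⌋₊).filter (fun d => ∃ n : ℕ, 1 ≤ n ∧ Nat.totient n = d ∧
      L n ≤ Real.log (Real.log x))) (fun d hd => by
      obtain ⟨h1, n, h2, h3, h4⟩ := Finset.mem_filter.1 hd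
      refine ⟨le_trans ?_ hxη, n, h2, h3, by linarith only [h4, hτ]⟩
      exact (Nat.le_floor_iff (by positivity)).1 (Finset.mem_Icc.1 h1).2)
    (fun d ⟨n, hn1, hn2⟩ hd hall => by
      refine Finset.mem_filter.2 ⟨Finset.mem_Icc.2 ⟨?_, Nat.le_floor hd⟩, n, hn1, hn2, ?_⟩
      · rw [← hn2]; exact Nat.totient_pos.2 hn1
      · linarith only [hall n hn1 hn2, hτ]) Set.univ
  simp only [Set.mem_univ, and_true, Finset.filter_true] at h1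
  change |(V x : ℝ) - _| ≤ _ at h1
  have hV : (1 : ℝ) ≤ V x := by
    have h2 : 0 < V x := by
      refine (Set.ncard_pos ?_).2 ⟨1, ⟨1, le_rfl, Nat.totient_one⟩, by simpa using hx1⟩
      exact (Set.finite_Iic ⌊x⌋₊).subset fun v hv => Nat.le_floor hv.2
    exact_mod_cast h2
  generalize x / Real.log x * ∑ d ∈ (Finset.Icc 1 ⌊x ^ η⌋₊).filter
    (fun d => ∃ n : ℕ, 1 ≤ n ∧ Nat.totient n = d ∧ L n ≤ Real.log (Real.log x)), 1 / (d : ℝ) = W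
    at h1 ⊢
  have hW : (V x : ℝ) / 2 ≤ W := by
    have h2 := (abs_le.1 h1).2
    nlinarith only [h2, hε₁1, hV]
  have hW0 : 0 < W := by linarith only [hW, hV]
  rw [Real.dist_eq, show (V x : ℝ) / W - 1 = (V x - W) / W by field_simp, abs_div, abs_of_pos hW0,
    div_lt_iff₀ hW0]
  refine h1.trans_lt ?_
  nlinarith only [hW, hε₁, hε₁0, hε, hV, hW0]

end Vale.Agent.Results.P031.A0FordFormula
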